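import Vale.Agent.P022G.R.Defs
import Vale.Agent.P022D.R.Obj

/-!
# P022, block R: constructions of test objects and the tangent space
-/

set_option linter.all false

noncomputable section

namespace Vale.Agent.P022G.R

open NumberField Matrix
open Vale.Agent.P022 Vale.Agent.P022.C
open Vale.Agent.P027M.S (Inert mx)
open Vale.Agent.P022D.Sel (M2 Tan TanP)
open Vale.Agent.P022D.R (W ker_nil map_one' ker_set opn_of_le mat_inj)

variable {O F : Type} [CommRing O] [Field F] {S : Dat O F}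
variable {A B B' : Type} [CommRing A] [CommRing B] [CommRing B']

/-- the matrices of an object -/
def Obj.mat (X : Obj S A) : GQ ⊕ ℕ ⊕ ℕ → M2 A :=
  Sum.elim (fun g => X.ρ g) (Sum.elim X.α X.β)

/-- evaluation of polynomials in the entries of `ρ g`, `α l`, `β l` -/
def Obj.ev (X : Obj S A) : W O →+* A :=
  MvPolynomial.eval₂Hom X.ι fun v => X.mat v.1 v.2.1 v.2.2

theorem Obj.inv' (X : Obj S A) (l : ℕ) : X.β l * X.α l = 1 := mul_eq_one_comm.1 (X.inv l)

theorem Obj.oneβ (X : Obj S A) (l : ℕ) : (X.β l).map X.π = 1 := by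
  have := congrArg (fun M : M2 A => M.map X.π) (X.inv l)
  simpa only [Matrix.map_mul, X.one, one_mul, map_one'] using this

theorem Obj.surj (X : Obj S A) : Function.Surjective X.π := fun a => by
  obtain ⟨c, rfl⟩ := S.surj a
  exact ⟨_, X.alg c⟩

theorem Obj.finF (X : Obj S A) : Finite F :=
  have := X.fin
  Finite.of_surjective _ X.surj

theorem Obj.nil (X : Obj S A) : ∃ n, RingHom.ker X.π ^ n = ⊥ :=
  have := X.fin
  ker_nil X.π X.loc

theorem Hom.β {X : Obj S A} {Y : Obj S B} {u : A →+* B} (h : Hom X Y u) (l : ℕ) :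
    (X.β l).map u = Y.β l := by
  have h1 : Y.α l * (X.β l).map u = 1 := by rw [← h.α, ← Matrix.map_mul, X.inv, map_one']
  rw [← one_mul ((X.β l).map u), ← Y.inv' l, mul_assoc, h1, mul_one]

theorem Hom.π {X : Obj S A} {Y : Obj S B} {u : A →+* B} (h : Hom X Y u) (a : A) :
    Y.π (u a) = X.π a := by
  obtain ⟨c, hc⟩ := S.surj (X.π a)
  obtain ⟨n, hn⟩ := X.nil
  have h1 : a - X.ι c ∈ RingHom.ker X.π := by
    rw [RingHom.mem_ker, map_sub, X.alg, hc, sub_self]
  have h2 : (a - X.ι c) ^ n = 0 := Ideal.mem_bot.1 (hn ▸ Ideal.pow_mem_pow h1 n)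
  have h3 : Y.π (u (a - X.ι c)) = 0 := by
    refine IsNilpotent.eq_zero ⟨n, ?_⟩
    rw [← map_pow, ← map_pow, h2, map_zero, map_zero]
  rw [map_sub, map_sub, h.ι, Y.alg, hc] at h3
  exact sub_eq_zero.1 h3

theorem Hom.mat {X : Obj S A} {Y : Obj S B} {u : A →+* B} (h : Hom X Y u) (v : GQ ⊕ ℕ ⊕ ℕ) :
    (X.mat v).map u = Y.mat v := by
  rcases v with g | l | l
  exacts [h.ρ g, h.α l, h.β l]

theorem ev_C (X : Obj S A) (c : O) : X.ev (MvPolynomial.C c) = X.ι c :=
  MvPolynomial.eval₂Hom_C _ _ c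

theorem ev_X (X : Obj S A) (v : GQ ⊕ ℕ ⊕ ℕ) (i j : Fin 2) :
    X.ev (MvPolynomial.X (v, i, j)) = X.mat v i j := MvPolynomial.eval₂Hom_X' _ _ _

theorem Hom.ev {X : Obj S A} {Y : Obj S B} {u : A →+* B} (h : Hom X Y u) (w : W O) :
    u (X.ev w) = Y.ev w := by
  have : u.comp X.ev = Y.ev := by
    refine MvPolynomial.ringHom_ext (fun c => ?_) fun v => ?_
    · rw [RingHom.comp_apply, ev_C, ev_C, h.ι]
    · obtain ⟨v, i, j⟩ := v
      rw [RingHom.comp_apply, ev_X, ev_X, ← h.mat v, Matrix.map_apply]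
  exact congrArg (fun f : W O →+* B => f w) this

theorem hom_of_ev {X : Obj S A} {Y : Obj S B} {u : A →+* B} (h : ∀ w, u (X.ev w) = Y.ev w) :
    Hom X Y u := by
  refine ⟨fun c => by rw [← ev_C, h, ev_C], fun g => ?_, fun l => ?_⟩
  · ext i j
    exact (congrArg u (ev_X X (.inl g) i j).symm).trans ((h _).trans (ev_X Y _ i j))
  · ext i j
    exact (congrArg u (ev_X X (.inr (.inl l)) i j).symm).trans ((h _).trans (ev_X Y _ i j))

theorem Hom.comp {X : Obj S A} {Y : Obj S B} {Z : Obj S B'} {u : A →+* B} {v : B →+* B'}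
    (h : Hom X Y u) (k : Hom Y Z v) : Hom X Z (v.comp u) :=
  hom_of_ev fun w => by rw [RingHom.comp_apply, h.ev, k.ev]

theorem Hom.id (X : Obj S A) : Hom X X (RingHom.id A) := hom_of_ev fun _ => rfl

variable (S) in
/-- the residue map on the polynomials in the entries -/
def πW : W O →+* F :=
  MvPolynomial.eval₂Hom S.red fun v =>
    Sum.elim (fun g => mx S.rb g) (fun _ => (1 : M2 F)) v.1 v.2.1 v.2.2

theorem π_ev (X : Obj S A) (w : W O) : X.π (X.ev w) = πW S w := by
  have : X.π.comp X.ev = πW S := by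
    refine MvPolynomial.ringHom_ext (fun c => ?_) fun v => ?_
    · rw [RingHom.comp_apply, ev_C, X.alg, πW, MvPolynomial.eval₂Hom_C]
    · obtain ⟨v, i, j⟩ := v
      rw [RingHom.comp_apply, ev_X, πW, MvPolynomial.eval₂Hom_X']
      rcases v with g | l | l
      · exact congrFun (congrFun (X.res g) i) j
      · exact congrFun (congrFun (X.one l) i) j
      · exact congrFun (congrFun (X.oneβ l) i) j
  exact congrArg (fun f : W O →+* F => f w) this

theorem πW_C (c : O) : πW S (MvPolynomial.C c) = S.red c := MvPolynomial.eval₂Hom_C _ _ c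

/-- the image of an object -/
def Obj.map (X : Obj S A) (u : A →+* B) (p : B →+* F) (hf : Finite B)
    (hl : ∀ b, p b ≠ 0 → IsUnit b) (hp : ∀ a, p (u a) = X.π a) : Obj S B where
  ι := u.comp X.ι
  π := p
  ρ := u.mapMatrix.toMonoidHom.comp X.ρ
  α l := (X.α l).map u
  β l := (X.β l).map u
  fin := hf
  loc := hl
  alg c := (hp _).trans (X.alg c)
  res g := by
    rw [← X.res g]
    ext i j
    exact hp _
  opn := opn_of_le X.ρ _ X.opn fun g hg => (congrArg (fun M : M2 A => M.map u) hg).trans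
    (map_one' u)
  dg := ⟨(congrArg u X.dg.1).trans u.map_zero, (congrArg u X.dg.2).trans u.map_zero⟩
  inv l := by rw [← Matrix.map_mul, X.inv, map_one']
  one l := by
    rw [← X.one l]
    ext i j
    exact hp _
  off l hl := by rw [X.off l hl, map_one']
  fr := ⟨(congrArg u X.fr.1).trans u.map_one, (congrArg u X.fr.2).trans u.map_one⟩

theorem hom_map (X : Obj S A) (u : A →+* B) (p : B →+* F) (hf : Finite B)
    (hl : ∀ b, p b ≠ 0 → IsUnit b) (hp : ∀ a, p (u a) = X.π a) : Hom X (X.map u p hf hl hp) u :=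
  ⟨fun _ => rfl, fun _ => rfl, fun _ => rfl⟩

/-- the object over a ring which embeds in a product -/
def Obj.pull (Y : Obj S B) (Y' : Obj S B') (u : A →+* B) (u' : A →+* B')
    (h : ∀ a, u a = 0 → u' a = 0 → a = 0) (hp : ∀ a, Y.π (u a) = Y'.π (u' a)) (ι : O →+* A)
    (m : GQ ⊕ ℕ ⊕ ℕ → M2 A) (hι : ∀ c, u (ι c) = Y.ι c) (hι' : ∀ c, u' (ι c) = Y'.ι c)
    (hm : ∀ v, (m v).map u = Y.mat v) (hm' : ∀ v, (m v).map u' = Y'.mat v) : Obj S A :=
  have hf : Finite A := by
    have := Y.fin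
    have := Y'.fin
    refine Finite.of_injective (u.prod u') ((injective_iff_map_eq_zero _).2 fun a ha => ?_)
    exact h a (congrArg Prod.fst ha) (congrArg Prod.snd ha)
  have en : ∀ v i j (c : A), Y.mat v i j = u c → Y'.mat v i j = u' c → m v i j = c :=
    fun v i j c e e' => sub_eq_zero.1 (h _
      (by rw [map_sub, ← e, ← hm v, Matrix.map_apply, sub_self])
      (by rw [map_sub, ← e', ← hm' v, Matrix.map_apply, sub_self]))
  { ι := ι
    π := Y.π.comp u
    ρ :=
      { toFun := fun g => m (.inl g)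
        map_one' := mat_inj h ((hm _).trans (Y.ρ.map_one.trans (map_one' u).symm))
          ((hm' _).trans (Y'.ρ.map_one.trans (map_one' u').symm))
        map_mul' := fun g k => mat_inj h
          (by rw [Matrix.map_mul, hm, hm, hm]; exact Y.ρ.map_mul g k)
          (by rw [Matrix.map_mul, hm', hm', hm']; exact Y'.ρ.map_mul g k) }
    α := fun l => m (.inr (.inl l))
    β := fun l => m (.inr (.inr l))
    fin := hf
    loc := fun a ha => by
      have h1 := Y.loc _ ha
      have h2 := Y'.loc (u' a) (hp a ▸ ha)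
      refine isUnit_iff_mem_nonZeroDivisors_of_finite.2 (mem_nonZeroDivisors_iff_right.2 ?_)
      intro x hx
      refine h x (h1.mul_left_eq_zero.1 ?_) (h2.mul_left_eq_zero.1 ?_)
      · rw [← map_mul, hx, map_zero]
      · rw [← map_mul, hx, map_zero]
    alg := fun c => (congrArg Y.π (hι c)).trans (Y.alg c)
    res := fun g => by
      rw [← Y.res g]
      ext i j
      exact congrArg Y.π (congrFun (congrFun (hm (.inl g)) i) j)
    opn := by
      have e : {g : GQ | m (.inl g) = 1} = {g | Y.ρ g = 1} ∩ {g | Y'.ρ g = 1} := by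
        ext g
        constructor
        · intro hg
          exact ⟨(hm (.inl g)).symm.trans ((congrArg (fun M : M2 A => M.map u) hg).trans
            (map_one' u)), (hm' (.inl g)).symm.trans
            ((congrArg (fun M : M2 A => M.map u') hg).trans (map_one' u'))⟩
        · rintro ⟨a, b⟩
          exact mat_inj h ((hm _).trans (a.trans (map_one' u).symm))
            ((hm' _).trans (b.trans (map_one' u').symm))
      exact e ▸ Y.opn.inter Y'.opn
    dg := ⟨en _ _ _ _ (Y.dg.1.trans u.map_zero.symm) (Y'.dg.1.trans u'.map_zero.symm),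
      en _ _ _ _ (Y.dg.2.trans u.map_zero.symm) (Y'.dg.2.trans u'.map_zero.symm)⟩
    inv := fun l => mat_inj h (by rw [Matrix.map_mul, hm, hm, map_one']; exact Y.inv l)
      (by rw [Matrix.map_mul, hm', hm', map_one']; exact Y'.inv l)
    one := fun l => by
      rw [← Y.one l]
      ext i j
      exact congrArg Y.π (congrFun (congrFun (hm (.inr (.inl l))) i) j)
    off := fun l hl => mat_inj h ((hm _).trans ((Y.off l hl).trans (map_one' u).symm))
      ((hm' _).trans ((Y'.off l hl).trans (map_one' u').symm))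
    fr := ⟨en _ _ _ _ (Y.fr.1.trans u.map_one.symm) (Y'.fr.1.trans u'.map_one.symm),
      en _ _ _ _ (Y.fr.2.trans u.map_one.symm) (Y'.fr.2.trans u'.map_one.symm)⟩ }

/-- every pair of objects has a common canonical source -/
theorem exists_can (Y : Obj S B) (Y' : Obj S B') (I : Ideal (W O))
    (hI : ∀ w, w ∈ I ↔ Y.ev w = 0 ∧ Y'.ev w = 0) :
    ∃ (Z : Obj S (W O ⧸ I)) (u : W O ⧸ I →+* B) (u' : W O ⧸ I →+* B'),
      (∀ w, Z.ev w = Ideal.Quotient.mk I w) ∧ Hom Z Y u ∧ Hom Z Y' u' ∧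
        ∀ a, u a = 0 → u' a = 0 → a = 0 := by
  let u := Ideal.Quotient.lift I Y.ev fun w hw => ((hI w).1 hw).1
  let u' := Ideal.Quotient.lift I Y'.ev fun w hw => ((hI w).1 hw).2
  have h : ∀ a, u a = 0 → u' a = 0 → a = 0 := fun a => by
    obtain ⟨w, rfl⟩ := Ideal.Quotient.mk_surjective a
    exact fun e e' => Ideal.Quotient.eq_zero_iff_mem.2 ((hI w).2 ⟨e, e'⟩)
  let Z := Y.pull Y' u u' h
    (fun a => by
      obtain ⟨w, rfl⟩ := Ideal.Quotient.mk_surjective a
      exact (π_ev Y w).trans (π_ev Y' w).symm)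
    ((Ideal.Quotient.mk I).comp MvPolynomial.C)
    (fun v => Matrix.of fun i j => Ideal.Quotient.mk I (MvPolynomial.X (v, i, j)))
    (fun c => ev_C Y c) (fun c => ev_C Y' c)
    (fun v => Matrix.ext fun i j => ev_X Y v i j) (fun v => Matrix.ext fun i j => ev_X Y' v i j)
  have e : Z.ev = Ideal.Quotient.mk I := by
    refine MvPolynomial.ringHom_ext (fun c => ev_C Z c) fun v => ?_
    obtain ⟨v, i, j⟩ := v
    rw [ev_X]
    rcases v with g | l | l <;> rfl
  exact ⟨Z, u, u', fun w => by rw [e], hom_of_ev fun w => by rw [e]; rfl,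
    hom_of_ev fun w => by rw [e]; rfl, h⟩

theorem Unr.mono {X : Obj S A} {Q Q' : Finset ℕ} (h : Unr X Q) (k : Q ⊆ Q') : Unr X Q' :=
  fun l a b c => h l a b fun d => c (k d)

theorem Closed.ty {C : Cl S} (h : Closed C) (Q : Finset ℕ) : Closed (Ty C Q) where
  push A B _ _ X Y u k hX := ⟨h.push A B X Y u k hX.1, fun l a b c P d e g f => by
    rw [← k.ρ, hX.2 l a b c P d e g f, map_one']⟩
  pull A B B' _ _ _ X Y Y' u u' k k' i hY hY' := ⟨h.pull A B B' X Y Y' u u' k k' i hY.1 hY'.1,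
    fun l a b c P d e g f => mat_inj i
      (by rw [k.ρ, hY.2 l a b c P d e g f, map_one'])
      (by rw [k'.ρ, hY'.2 l a b c P d e g f, map_one'])⟩

theorem Loc.mono {τ : Type} {D : ℕ → Set GQ} {C C' : Cl S} {κ : Crd S τ} (h : Loc D C κ)
    (k : ∀ (A : Type) [CommRing A] (X : Obj S A), C' A X → C A X) : Loc D C' κ :=
  ⟨fun A B _ _ X Y u a b => h.nat A B X Y u a (k A X b), fun A _ X a => h.res A X (k A X a),
    fun Y a b c => h.tan Y a b (k _ Y c)⟩

/-- equations in the entries define a closed class -/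
theorem closed_eq (E : Set (W O)) : Closed (S := S) fun _ _ X => ∀ w ∈ E, X.ev w = 0 where
  push _ _ _ _ X Y u k hX w hw := by rw [← k.ev, hX w hw, map_zero]
  pull _ _ _ _ _ _ X Y Y' u u' k k' i hY hY' w hw :=
    i _ (by rw [k.ev, hY w hw]) (by rw [k'.ev, hY' w hw])

theorem Closed.and {C C' : Cl S} (h : Closed C) (h' : Closed C') :
    Closed (S := S) fun A _ X => C A X ∧ C' A X where
  push A B _ _ X Y u k hX := ⟨h.push A B X Y u k hX.1, h'.push A B X Y u k hX.2⟩
  pull A B B' _ _ _ X Y Y' u u' k k' i hY hY' :=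
    ⟨h.pull A B B' X Y Y' u u' k k' i hY.1 hY'.1, h'.pull A B B' X Y Y' u u' k k' i hY.2 hY'.2⟩

end Vale.Agent.P022G.R
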